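import Mathlib

set_option autoImplicit false

open scoped Classical

namespace Vale.Agent.P181.H498

/-! ### Reindexing the columns -/

lemma card_eq_of_counts {C C' : Type} [Fintype C] [Fintype C'] (l : C → ℕ) (l' : C' → ℕ)
    (h : ∀ i : ℕ, (Finset.univ.filter fun c => i < l c).card =
      (Finset.univ.filter fun c => i < l' c).card) (n : ℕ) :
    (Finset.univ.filter fun c => l c = n + 1).card =
      (Finset.univ.filter fun c => l' c = n + 1).card := by
  have key : ∀ {D : Type} [Fintype D] (k : D → ℕ),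
      (Finset.univ.filter fun c => n < k c).card =
        (Finset.univ.filter fun c => k c = n + 1).card +
        (Finset.univ.filter fun c => n + 1 < k c).card := by
    intro D _ k
    rw [← Finset.card_union_of_disjoint]
    · congr 1
      ext c
      simp only [Finset.mem_filter, Finset.mem_univ, true_and, Finset.mem_union]
      omega
    · rw [Finset.disjoint_left]
      intro c hc hc'
      rw [Finset.mem_filter] at hc hc'
      omega
  have h1 := key l
  have h2 := key l'
  have h3 := h n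
  have h4 := h (n + 1)
  omega

lemma exists_colEquiv {C C' : Type} [Fintype C] [Fintype C'] (l : C → ℕ) (l' : C' → ℕ)
    (h : ∀ i : ℕ, (Finset.univ.filter fun c => i < l c).card =
      (Finset.univ.filter fun c => i < l' c).card) :
    ∃ ψ : {c // 0 < l c} ≃ {c // 0 < l' c}, ∀ c, l' (ψ c) = l c := by
  have h1 : ∀ n, Nonempty ({c : {c // 0 < l c} // l c = n} ≃ {c : {c // 0 < l' c} // l' c = n}) := by
    intro n
    rcases n with _ | n
    · have e1 : IsEmpty {c : {c // 0 < l c} // l c = 0} := ⟨fun c => by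
        have := c.1.2
        have := c.2
        omega⟩
      have e2 : IsEmpty {c : {c // 0 < l' c} // l' c = 0} := ⟨fun c => by
        have := c.1.2
        have := c.2
        omega⟩
      exact ⟨Equiv.equivOfIsEmpty _ _⟩
    · have key : ∀ {D : Type} [Fintype D] (k : D → ℕ),
          Fintype.card {c : {c // 0 < k c} // k c = n + 1} =
            (Finset.univ.filter fun c => k c = n + 1).card := by
        intro D _ k
        rw [← Fintype.card_subtype]
        refine Fintype.card_congr ⟨fun c => ⟨c.1.1, c.2⟩, fun c => ⟨⟨c.1, by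
          have := c.2
          omega⟩, c.2⟩, ?_, ?_⟩
        · intro c
          rfl
        · intro c
          rfl
      refine ⟨Fintype.equivOfCardEq ?_⟩
      rw [key l, key l']
      exact card_eq_of_counts l l' h n
  let f : {c // 0 < l c} → ℕ := fun c => l c
  let g : {c // 0 < l' c} → ℕ := fun c => l' c
  exact ⟨Equiv.ofFiberEquiv (f := f) (g := g) (fun n => (h1 n).some), fun c =>
    Equiv.ofFiberEquiv_map (f := f) (g := g) (fun n => (h1 n).some) c⟩

section

variable {C C' : Type} {N : ℕ} {l : C → ℕ} {l' : C' → ℕ}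

/-- A filling of the columns `C'` pulled back to the columns `C`. -/
noncomputable def pull (ψ : {c // 0 < l c} ≃ {c // 0 < l' c}) (hψ : ∀ c, l' (ψ c) = l c)
    (J : (c : C') → Fin (l' c) → Fin N) (c : C) : Fin (l c) → Fin N :=
  if h : 0 < l c then fun s => J (ψ ⟨c, h⟩) (Fin.cast (hψ ⟨c, h⟩).symm s)
  else fun s => absurd s.2 (by omega)

lemma prod_pull [Fintype C] [Fintype C'] {M : Type} [CommMonoid M]
    (ψ : {c // 0 < l c} ≃ {c // 0 < l' c}) (hψ : ∀ c, l' (ψ c) = l c)
    (Φ : (n : ℕ) → (Fin n → Fin N) → M) (h0 : ∀ f, Φ 0 f = 1)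
    (J : (c : C') → Fin (l' c) → Fin N) :
    ∏ c, Φ (l c) (pull ψ hψ J c) = ∏ c, Φ (l' c) (J c) := by
  have h0' : ∀ n, n = 0 → ∀ f : Fin n → Fin N, Φ n f = 1 := by
    intro n hn
    subst hn
    exact h0
  have hc : ∀ (n n' : ℕ) (h : n = n') (f : Fin n' → Fin N),
      Φ n (fun s => f (Fin.cast h s)) = Φ n' f := by
    intro n n' h f
    subst h
    rfl
  rw [← Fintype.prod_subtype_mul_prod_subtype (fun c => 0 < l c)
    (fun c => Φ (l c) (pull ψ hψ J c)),
    ← Fintype.prod_subtype_mul_prod_subtype (fun c => 0 < l' c) (fun c => Φ (l' c) (J c))]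
  have h1 : ∏ c : {c // ¬ 0 < l c}, Φ (l c) (pull ψ hψ J c) = 1 :=
    Finset.prod_eq_one fun c _ => h0' _ (by have := c.2; omega) _
  have h2 : ∏ c : {c // ¬ 0 < l' c}, Φ (l' c) (J c) = 1 :=
    Finset.prod_eq_one fun c _ => h0' _ (by have := c.2; omega) _
  rw [h1, h2, mul_one, mul_one, ← Equiv.prod_comp ψ]
  apply Finset.prod_congr rfl
  intro c _
  rw [pull, dif_pos c.2]
  exact hc _ _ (hψ c).symm _

lemma sum_pull [Fintype C] [Fintype C'] {M : Type} [AddCommMonoid M]
    (ψ : {c // 0 < l c} ≃ {c // 0 < l' c}) (hψ : ∀ c, l' (ψ c) = l c)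
    (Φ : (n : ℕ) → (Fin n → Fin N) → M) (h0 : ∀ f, Φ 0 f = 0)
    (J : (c : C') → Fin (l' c) → Fin N) :
    ∑ c, Φ (l c) (pull ψ hψ J c) = ∑ c, Φ (l' c) (J c) :=
  prod_pull (M := Multiplicative M) ψ hψ Φ h0 J

end

end Vale.Agent.P181.H498
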