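import Vale.Agent.P181.H914.Frame

set_option autoImplicit false

open scoped Classical

namespace Vale.Agent.P181.T4

/-- Number of incidences of a position with the rows of the top part. -/
noncomputable def Frame.inc {m R N : ℕ} {T C : Type} [Fintype T] [Fintype C]
    (Fr : Frame m R N T C) (p : T ⊕ Fin N) : ℕ :=
  ∑ c : C, ((Finset.range (Fr.len c)).filter (fun i => i < R ∧ Fr.srv c i = p)).card

/-- The output of (C2): a frame for the partition `lam` of `a * b` (at most `a` rows), with
`N ≥ b - R (L / a + 3)` free points, in which every position is used exactly `a` times, the point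
`q` being used `d q` times below the row `R`, `d` balanced. -/
def FrameFor (a b R L : ℕ) (lam : Fin a → ℕ) : Prop :=
  ∃ (N : ℕ) (T C : Type) (_ : Fintype T) (_ : Fintype C) (Fr : Frame a R N T C) (d : Fin N → ℕ),
    b ≤ N + R * (L / a + 3) ∧ Fintype.card T + N = b ∧
    (∀ i : Fin a, (Finset.univ.filter fun c => (i : ℕ) < Fr.len c).card = lam i) ∧
    (∀ t, Fr.inc (Sum.inl t) = a) ∧ (∀ q, Fr.inc (Sum.inr q) + d q = a) ∧
    (∀ i j, d i ≤ d j + 1)

end Vale.Agent.P181.T4
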