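import Vale.Agent.P181.R2.H188.W2

set_option autoImplicit false

namespace Vale.Agent.P181.H498

open Vale.Agent.P181 Vale.Agent.P181.H280 Vale.Agent.P181.FR Vale.Agent.P181.H188W
open MvPolynomial

variable {b m a : ℕ} {C : Type} [Fintype C]

open Classical in
/-- A product of minors in which every position is used `a` times. -/
theorem prod_dt_MP (len : C → ℕ) (len_le : ∀ c, len c ≤ m) (J : (c : C) → Fin (len c) → Fin b)
    (hJ : ∀ j : Fin b, ∑ c, (Finset.univ.filter fun i : Fin (len c) => J c i = j).card = a) :
    (∏ c, dt (len_le c) (J c)) ∈ MP b m a := by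
  have h := MPd_prod (Finset.univ : Finset C)
    (fun c => ∑ i, (Pi.single (J c i) 1 : Fin b → ℕ)) (fun c => dt (len_le c) (J c))
    (fun c _ => dt_MPd (len_le c) (J c))
  have h2 : ∑ c, ∑ i, (Pi.single (J c i) 1 : Fin b → ℕ) = fun _ => a := by
    funext j
    rw [← hJ j, Finset.sum_apply]
    apply Finset.sum_congr rfl
    intro c _
    rw [Finset.sum_apply, Finset.card_filter]
    apply Finset.sum_congr rfl
    intro i _
    rw [Pi.single_apply]
    by_cases hi : J c i = j
    · rw [if_pos hi, if_pos hi.symm]
    · rw [if_neg hi, if_neg (fun h => hi h.symm)]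
  rw [h2] at h
  exact h

open Classical in
/-- A product of minors is a highest weight function; its weight has rows
`#{c | i < len c}`. -/
theorem prod_dt_HWF (len : C → ℕ) (len_le : ∀ c, len c ≤ m)
    (J : (c : C) → Fin (len c) → Fin b) (lam : Fin m → ℕ)
    (hlam : ∀ i : Fin m, (Finset.univ.filter fun c => (i : ℕ) < len c).card = lam i) :
    HWF b m lam (∏ c, dt (len_le c) (J c)) := by
  have h := HWF_prod (Finset.univ : Finset C) (fun c => om m (len c))
    (fun c => dt (len_le c) (J c)) (fun c _ => dt_HWF (len_le c) (J c))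
  have h2 : ∑ c, om m (len c) = lam := by
    funext i
    rw [← hlam i, Finset.sum_apply, Finset.card_filter]
    rfl
  rw [h2] at h
  exact h

end Vale.Agent.P181.H498
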