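import Vale.Agent.P181.H411.Seam3
import Vale.Agent.P181.H914.Main
import Vale.Agent.P181.H498.Design
import Vale.Agent.P181.H498.Mem
import Vale.Agent.P181.H498.Cols

set_option autoImplicit false

open MvPolynomial
open scoped Classical

namespace Vale.Agent.P181.H498

open Vale.Agent.P181 Vale.Agent.P181.H280 Vale.Agent.P181.FR Vale.Agent.P181.H188W
open Vale.Agent.P181.T4

section

variable {m R N b a : ℕ} {T C : Type} [Fintype T] [Fintype C]

lemma card_J (Fr : Frame m R N T C) (c : C) (lo : Fin (Fr.len c - R) → Fin N) (p : T ⊕ Fin N) :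
    (Finset.univ.filter fun i : Fin (Fr.len c) => Fr.J c lo i = p).card =
      ((Finset.range (Fr.len c)).filter (fun i => i < R ∧ Fr.srv c i = p)).card +
      (Finset.univ.filter fun s : Fin (Fr.len c - R) => Sum.inr (lo s) = p).card := by
  have h1 : (Finset.univ.filter fun i : Fin (Fr.len c) => Fr.J c lo i = p) =
      (Finset.univ.filter fun i : Fin (Fr.len c) => (i : ℕ) < R ∧ Fr.srv c i = p) ∪
      (Finset.univ.filter fun i : Fin (Fr.len c) => R ≤ (i : ℕ) ∧ Fr.J c lo i = p) := by
    ext i
    simp only [Finset.mem_filter, Finset.mem_univ, true_and, Finset.mem_union]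
    by_cases hi : (i : ℕ) < R
    · have : Fr.J c lo i = Fr.srv c i := by
        rw [Frame.J, dif_pos hi]
      rw [this]
      constructor
      · intro h; exact Or.inl ⟨hi, h⟩
      · rintro (h | h)
        · exact h.2
        · exact h.2
    · constructor
      · intro h; exact Or.inr ⟨by omega, h⟩
      · rintro (h | h)
        · exact absurd h.1 hi
        · exact h.2
  have h2 : Disjoint
      (Finset.univ.filter fun i : Fin (Fr.len c) => (i : ℕ) < R ∧ Fr.srv c i = p)
      (Finset.univ.filter fun i : Fin (Fr.len c) => R ≤ (i : ℕ) ∧ Fr.J c lo i = p) := by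
    rw [Finset.disjoint_left]
    intro i hi hi'
    rw [Finset.mem_filter] at hi hi'
    omega
  rw [h1, Finset.card_union_of_disjoint h2]
  congr 1
  · rw [Finset.card_filter, Finset.card_filter, Finset.sum_range]
  · symm
    refine Finset.card_bij (fun s _ => ⟨R + s, by omega⟩) ?_ ?_ ?_
    · intro s hs
      rw [Finset.mem_filter] at hs ⊢
      refine ⟨Finset.mem_univ _, by simp, ?_⟩
      rw [Frame.J, dif_neg (by simp)]
      have : (⟨R + (s : ℕ) - R, by omega⟩ : Fin (Fr.len c - R)) = s := Fin.ext (by simp)
      simp only [this]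
      exact hs.2
    · intro s _ s' _ h
      have := congrArg Fin.val h
      simp only at this
      exact Fin.ext (by omega)
    · intro i hi
      rw [Finset.mem_filter] at hi
      refine ⟨⟨i - R, by omega⟩, ?_, Fin.ext (by simp only; omega)⟩
      rw [Finset.mem_filter]
      refine ⟨Finset.mem_univ _, ?_⟩
      have h3 := hi.2.2
      rw [Frame.J, dif_neg (by omega)] at h3
      exact h3

/-- (A) + (C1): a frame in which every position is used `a` times. -/
theorem plethMult_ge_frame (Fr : Frame m R N T C)
    (e : Fin b ≃ T ⊕ Fin N) {ι : Type} [Fintype ι]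
    (low : ι → (c : C) → Fin (Fr.len c - R) → Fin N) (lam : Fin m → ℕ)
    (hlam : ∀ i : Fin m, (Finset.univ.filter fun c => (i : ℕ) < Fr.len c).card = lam i)
    (htop : ∀ t : T, Fr.inc (Sum.inl t) = a)
    (hpt : ∀ (β : ι) (q : Fin N), Fr.inc (Sum.inr q) +
      ∑ c, (Finset.univ.filter fun s : Fin (Fr.len c - R) => low β c s = q).card = a)
    (hli : LinearIndependent ℂ (fun β : ι =>
      ∏ c, dt (B := N) (m := m - R) (Nat.sub_le_sub_right (Fr.len_le c) R) (low β c))) :
    Fintype.card ι ≤ plethMult b a m lam := by
  refine plethMult_ge (fun β => ∏ c, dt (Fr.len_le c) (fun j => e.symm (Fr.J c (low β c) j))) ?_ ?_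
    (Fr.linInd e low hli)
  · intro β
    apply H498.prod_dt_MP
    intro j
    have h1 : ∀ c, (Finset.univ.filter fun i : Fin (Fr.len c) =>
        e.symm (Fr.J c (low β c) i) = j).card =
        ((Finset.range (Fr.len c)).filter (fun i => i < R ∧ Fr.srv c i = e j)).card +
        (Finset.univ.filter fun s : Fin (Fr.len c - R) => Sum.inr (low β c s) = e j).card := by
      intro c
      rw [← card_J]
      congr 1
      ext i
      rw [Finset.mem_filter, Finset.mem_filter, Equiv.symm_apply_eq]
    rw [Finset.sum_congr rfl (fun c _ => h1 c), Finset.sum_add_distrib]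
    rcases hj : e j with t | q
    · have h2 := htop t
      rw [Frame.inc] at h2
      rw [h2]
      have h3 : ∑ c, (Finset.univ.filter fun s : Fin (Fr.len c - R) =>
          (Sum.inr (low β c s) : T ⊕ Fin N) = Sum.inl t).card = 0 := by
        apply Finset.sum_eq_zero
        intro c _
        rw [Finset.card_eq_zero, Finset.filter_eq_empty_iff]
        intro s _ h
        exact absurd h (by simp)
      rw [h3, add_zero]
    · rw [← hpt β q, Frame.inc]
      congr 1
      apply Finset.sum_congr rfl
      intro c _
      congr 1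
      ext s
      simp
  · intro β
    exact H498.prod_dt_HWF Fr.len Fr.len_le _ lam hlam

/-- The number of incidences with the top rows. -/
lemma sum_inc (Fr : Frame m R N T C) (lam : Fin m → ℕ)
    (hlam : ∀ i : Fin m, (Finset.univ.filter fun c => (i : ℕ) < Fr.len c).card = lam i) :
    ∑ p, Fr.inc p = ∑ i : Fin m, if (i : ℕ) < R then lam i else 0 := by
  have h1 : ∑ p, Fr.inc p =
      ∑ c : C, ((Finset.range (Fr.len c)).filter (fun i => i < R)).card := by
    simp only [Frame.inc]
    rw [Finset.sum_comm]
    apply Finset.sum_congr rfl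
    intro c _
    simp only [Finset.card_filter]
    rw [Finset.sum_comm]
    apply Finset.sum_congr rfl
    intro i _
    by_cases hi : i < R
    · simp [hi]
    · simp [hi]
  have h2 : ∀ c, ((Finset.range (Fr.len c)).filter (fun i => i < R)).card =
      ∑ i : Fin m, if (i : ℕ) < R ∧ (i : ℕ) < Fr.len c then 1 else 0 := by
    intro c
    rw [← Finset.sum_range (fun i => if i < R ∧ i < Fr.len c then 1 else 0),
      ← Finset.card_filter]
    congr 1
    ext i
    have := Fr.len_le c
    simp only [Finset.mem_filter, Finset.mem_range]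
    omega
  rw [h1, Finset.sum_congr rfl (fun c _ => h2 c), Finset.sum_comm]
  apply Finset.sum_congr rfl
  intro i _
  by_cases hi : (i : ℕ) < R
  · rw [if_pos hi, ← hlam i, Finset.card_filter]
    apply Finset.sum_congr rfl
    intro c _
    simp [hi]
  · rw [if_neg hi]
    apply Finset.sum_eq_zero
    intro c _
    simp [hi]

lemma sum_split (hR : R ≤ a) (lam : Fin a → ℕ) :
    ∑ i, lam i = (∑ i : Fin a, if (i : ℕ) < R then lam i else 0) +
      ∑ i : Fin (a - R), lam ⟨R + i, by omega⟩ := by
  have h1 : ∑ i : Fin (a - R), lam ⟨R + i, by omega⟩ =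
      ∑ i : Fin a, if (i : ℕ) < R then 0 else lam i := by
    apply Fintype.sum_of_injective (fun i : Fin (a - R) => (⟨R + i, by omega⟩ : Fin a))
    · intro i j h
      have := congrArg Fin.val h
      simp only at this
      exact Fin.ext (by omega)
    · intro i hi
      have : (i : ℕ) < R := by
        by_contra hcon
        exact hi ⟨⟨i - R, by omega⟩, Fin.ext (by simp only; omega)⟩
      rw [if_pos this]
    · intro i
      rw [if_neg (by simp)]
  rw [h1, ← Finset.sum_add_distrib]
  apply Finset.sum_congr rfl
  intro i _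
  split_ifs <;> simp

end

/-- **The lower bound, function form.** For a partition which has a frame, linearly independent
products of minors of the lower part give highest weight vectors of `Sym^b(Sym^a)`. -/
theorem low_le {a b R L : ℕ} {lam : Fin a → ℕ} (hR : R ≤ a) (hsum : ∑ i, lam i = a * b)
    (h : FrameFor a b R L lam) :
    ∃ N ≤ b, b ≤ N + R * (L / a + 3) ∧ ∃ d : Fin N → ℕ, (∀ i j, d i ≤ d j + 1) ∧
      ∑ q, d q = ∑ i : Fin (a - R), lam ⟨R + i, by omega⟩ ∧
      ∀ {C' ι : Type} [Fintype C'] [Fintype ι] (len' : C' → ℕ) (hlen' : ∀ c, len' c ≤ a - R)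
        (_ : ∀ i : Fin (a - R), (Finset.univ.filter fun c => (i : ℕ) < len' c).card =
          lam ⟨R + i, by omega⟩)
        (J : ι → (c : C') → Fin (len' c) → Fin N)
        (_ : ∀ β q, ∑ c, (Finset.univ.filter fun s => J β c s = q).card = d q)
        (_ : LinearIndependent ℂ (fun β : ι => ∏ c, dt (B := N) (m := a - R) (hlen' c) (J β c))),
        Fintype.card ι ≤ plethMult b a a lam := by
  obtain ⟨N, T, C, _, _, Fr, d, hN, hcard, hlam, htop, hpt, hbal⟩ := h
  refine ⟨N, by omega, hN, d, hbal, ?_, ?_⟩
  · have h1 := sum_inc Fr lam hlam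
    rw [Fintype.sum_sum_type, Finset.sum_congr rfl (fun t _ => htop t)] at h1
    have h2 := sum_split hR lam
    have h3 : ∑ q, (Fr.inc (Sum.inr q) + d q) = N * a := by
      rw [Finset.sum_congr rfl (fun q _ => hpt q)]
      simp
    rw [Finset.sum_add_distrib] at h3
    rw [Finset.sum_const, Finset.card_univ, smul_eq_mul] at h1
    have h4 : Fintype.card T * a + N * a = a * b := by
      rw [← add_mul, hcard, mul_comm]
    omega
  · intro C' ι _ _ len' hlen' hcol J hJ hli
    have hcount : ∀ i : ℕ, (Finset.univ.filter fun c => i < Fr.len c - R).card =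
        (Finset.univ.filter fun c => i < len' c).card := by
      intro i
      by_cases hi : i < a - R
      · rw [hcol ⟨i, hi⟩, ← hlam]
        congr 1
        ext c
        simp only [Finset.mem_filter, Finset.mem_univ, true_and]
        omega
      · have e1 : (Finset.univ.filter fun c => i < Fr.len c - R) = ∅ := by
          rw [Finset.filter_eq_empty_iff]
          intro c _
          have := Fr.len_le c
          omega
        have e2 : (Finset.univ.filter fun c => i < len' c) = ∅ := by
          rw [Finset.filter_eq_empty_iff]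
          intro c _
          have := hlen' c
          omega
        rw [e1, e2, Finset.card_empty, Finset.card_empty]
    obtain ⟨ψ, hψ⟩ := exists_colEquiv (fun c => Fr.len c - R) len' hcount
    have e : Fin b ≃ T ⊕ Fin N := (Fintype.equivFinOfCardEq (by simpa using hcard)).symm
    refine plethMult_ge_frame Fr e (fun β => pull ψ hψ (J β)) lam hlam htop ?_ ?_
    · intro β q
      have h1 := sum_pull ψ hψ (fun n (f : Fin n → Fin N) =>
        (Finset.univ.filter fun s => f s = q).card) (by intro f; rfl) (J β)
      rw [h1, hJ β q]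
      exact hpt q
    · have h1 : ∀ β, ∏ c, dt (B := N) (m := a - R) (Nat.sub_le_sub_right (Fr.len_le c) R)
          (pull ψ hψ (J β) c) = ∏ c, dt (B := N) (m := a - R) (hlen' c) (J β c) := by
        intro β
        let Φ : (n : ℕ) → (Fin n → Fin N) → ((Fin N → Fin (a - R) → ℂ) → ℂ) := fun n f =>
          if h : n ≤ a - R then dt h f else 1
        have h2 := prod_pull ψ hψ Φ (by
          intro f
          simp only [Φ, Nat.zero_le, dif_pos]
          funext z
          simp [dt]) (J β)
        have h3 : ∀ c, Φ (Fr.len c - R) (pull ψ hψ (J β) c) =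
            dt (B := N) (m := a - R) (Nat.sub_le_sub_right (Fr.len_le c) R)
              (pull ψ hψ (J β) c) := by
          intro c
          simp only [Φ]
          rw [dif_pos (Nat.sub_le_sub_right (Fr.len_le c) R)]
        have h4 : ∀ c, Φ (len' c) (J β c) = dt (hlen' c) (J β c) := by
          intro c
          simp only [Φ]
          rw [dif_pos (hlen' c)]
        rw [Finset.prod_congr rfl (fun c _ => h3 c), Finset.prod_congr rfl (fun c _ => h4 c)] at h2
        exact h2
      rw [funext h1]
      exact hli

/-- A product of minors as a polynomial: the minor of the first rows at the points `u`. -/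
noncomputable def dtP {N n i : ℕ} (hi : i ≤ n) (u : Fin i → Fin N) :
    MvPolynomial (Fin n × Fin N) ℂ :=
  Matrix.det (Matrix.of fun r s : Fin i => X (Fin.castLE hi r, u s))

lemma evalP_dtP {N n i : ℕ} (hi : i ≤ n) (u : Fin i → Fin N) :
    evalP N n (dtP hi u) = dt hi u := by
  funext p
  rw [evalP_apply, dtP, RingHom.map_det, dt, ← Matrix.det_transpose]
  congr 1
  ext r s
  simp [Matrix.transpose_apply]

lemma evalP_prod_dtP {N n : ℕ} {C : Type} [Fintype C] (len : C → ℕ) (hlen : ∀ c, len c ≤ n)
    (u : (c : C) → Fin (len c) → Fin N) :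
    evalP N n (∏ c, dtP (hlen c) (u c)) = ∏ c, dt (hlen c) (u c) := by
  funext p
  rw [evalP_apply, map_prod, Finset.prod_apply]
  apply Finset.prod_congr rfl
  intro c _
  rw [← evalP_dtP]
  rfl

/-- Linear independence of the products of minors: polynomials and functions. -/
theorem linInd_dtP {N n : ℕ} {C ι : Type} [Fintype C] (len : C → ℕ) (hlen : ∀ c, len c ≤ n)
    (J : ι → (c : C) → Fin (len c) → Fin N)
    (hli : LinearIndependent ℂ (fun β : ι => ∏ c, dtP (hlen c) (J β c))) :
    LinearIndependent ℂ (fun β : ι => ∏ c, dt (B := N) (m := n) (hlen c) (J β c)) := by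
  have h := hli.map' (evalP N n) (LinearMap.ker_eq_bot.2 (fun _ _ h => evalP_inj h))
  have h2 : (evalP N n ∘ fun β : ι => ∏ c, dtP (hlen c) (J β c)) =
      fun β : ι => ∏ c, dt (B := N) (m := n) (hlen c) (J β c) := by
    funext β
    exact evalP_prod_dtP len hlen (J β)
  rwa [h2] at h

end Vale.Agent.P181.H498
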